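import Crest.Agent.R055.KeyLemma

/-!
A finite group acts on a finite set; a subset all of whose subsets have large orbits has
spread random translates.
-/

set_option autoImplicit false
set_option linter.unusedSectionVars false

namespace Crest.Agent.R055

open Finset Crest.Agent.Lib.FinEnt
open scoped Classical Pointwise

variable {Ω : Type} [Fintype Ω] {w : Ω → ℝ} {Ω' : Type} [Fintype Ω'] {w' : Ω' → ℝ}

lemma cex_add {γ : Type} (Z : Ω → γ) (f g : Ω → ℝ) (z : γ) :
    cex w Z (fun ω => f ω + g ω) z = cex w Z f z + cex w Z g z := by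
  unfold cex
  rw [← add_div, ← ex_add]
  congr 2; funext ω; ring

lemma cex_sub {γ : Type} (Z : Ω → γ) (f g : Ω → ℝ) (z : γ) :
    cex w Z (fun ω => f ω - g ω) z = cex w Z f z - cex w Z g z := by
  unfold cex
  rw [← sub_div, ← ex_sub]
  congr 2; funext ω; ring

lemma ph_double {x : ℝ} (h0 : 0 ≤ x) (h1 : x ≤ 1) :
    17 / 8 * ph x - 2 * (x * x) ≤ ph (x + x - x * x) := by
  unfold ph
  have hs := Real.sqrt_nonneg x
  have hs2 := Real.sq_sqrt h0
  have hs1 : Real.sqrt x ≤ 1 := Real.sqrt_le_one.mpr h1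
  have e : x + x - x * x = x * (2 - x) := by ring
  rw [e, Real.sqrt_mul h0]
  set s := Real.sqrt x
  have ht : 7 / 5 - 2 / 5 * s ≤ Real.sqrt (2 - x) := by
    apply Real.le_sqrt_of_sq_le
    rw [← hs2]; nlinarith
  have h2 : 17 / 8 - 2 * s ≤ (2 - x) * Real.sqrt (2 - x) := by
    have h3 : (2 - x) * (7 / 5 - 2 / 5 * s) ≤ (2 - x) * Real.sqrt (2 - x) :=
      mul_le_mul_of_nonneg_left ht (by linarith)
    have h4 : 0 ≤ s ^ 3 := by positivity
    have h5 : s ^ 2 ≤ s := by nlinarith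
    rw [← hs2] at h3 ⊢
    nlinarith
  have h6 : x * s * (17 / 8 - 2 * s) ≤ x * s * ((2 - x) * Real.sqrt (2 - x)) :=
    mul_le_mul_of_nonneg_left h2 (mul_nonneg h0 hs)
  have h7 : x * s * s = x * x := by rw [mul_assoc, ← sq, hs2]
  nlinarith

section action

variable (G : Type) [Group G] [Fintype G] {β : Type} [MulAction G β]

/-- Law of a uniformly translated random variable. -/
noncomputable def pbar (w : Ω → ℝ) (B : Ω → β) (b : β) : ℝ :=
  pr (prodW (unif G) w) (fun p => p.1 • B p.2) b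

/-- Entropy of a uniformly translated random variable. -/
noncomputable def gent (w : Ω → ℝ) (B : Ω → β) : ℝ :=
  ent (prodW (unif G) w) (fun p => p.1 • B p.2)

variable {G}

lemma pbar_smul (B : Ω → β) (g : G) (b : β) : pbar G w B (g • b) = pbar G w B b := by
  unfold pbar pr
  rw [ex_prodW, ex_prodW, ← ex_unif_equiv (Equiv.mulLeft g)]
  congr 1; funext h; congr 1; funext ω
  exact ind_congr (by simp [mul_smul])

lemma pbar_nonneg (hw : IsPMF w) (B : Ω → β) (b : β) : 0 ≤ pbar G w B b :=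
  pr_nonneg (isPMF_prodW isPMF_unif hw) _ _

lemma pbar_pos (hw : IsPMF w) (B : Ω → β) {ω : Ω} (h : w ω ≠ 0) : 0 < pbar G w B (B ω) := by
  have h1 : prodW (unif G) w ((1 : G), ω) ≠ 0 := by
    unfold prodW unif
    have : (Fintype.card G : ℝ) ≠ 0 := by exact_mod_cast Fintype.card_ne_zero
    simp [this, h]
  have := pr_pos (isPMF_prodW isPMF_unif hw) (fun p : G × Ω => p.1 • B p.2) h1
  simpa [pbar] using this

lemma sum_pbar [Fintype β] (hw : IsPMF w) (B : Ω → β) : ∑ b, pbar G w B b = 1 :=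
  sum_pr (isPMF_prodW isPMF_unif hw) _

lemma gent_eq (B : Ω → β) :
    gent G w B = - ex w (fun ω => Real.log (pbar G w B (B ω))) := by
  unfold gent ent
  congr 1
  rw [← mp_prod_snd (w := unif G) isPMF_unif (fun ω => Real.log (pbar G w B (B ω)))]
  congr 1; funext p
  rw [← pbar_smul B p.1]; rfl

lemma gent_mp {π : Ω' → Ω} (h : MP w' w π) (B : Ω → β) :
    gent G w' (fun ω' => B (π ω')) = gent G w B :=
  (h.prod_right (w := unif G)).ent_eq (fun p => p.1 • B p.2)

lemma ent_le_gent [Fintype β] (hw : IsPMF w) (B : Ω → β) : ent w B ≤ gent G w B := by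
  rw [gent_eq]
  exact ent_le_of_kernel hw B (pbar G w B) (pbar_nonneg hw B) (sum_pbar hw B).le
    (fun ω h => pbar_pos hw B h)

end action

section sets

variable (G : Type) [Group G] [Fintype G] {X : Type} [Fintype X] [DecidableEq X] [MulAction G X]

/-- Probability that a random translate of `S` lies in `H`. -/
noncomputable def rho (H S : Finset X) : ℝ := ex (unif G) (fun g => ind (g • S ⊆ H))

/-- Size of the orbit of `S`. -/
noncomputable def orb (S : Finset X) : ℝ := ((Finset.univ.image (fun g : G => g • S)).card : ℝ)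

variable {G}

lemma rho_smul (H S : Finset X) (g : G) : rho G H (g • S) = rho G H S := by
  unfold rho
  rw [← ex_unif_equiv (Equiv.mulRight g) (fun g => ind (g • S ⊆ H))]
  congr 1; funext h
  simp [mul_smul]

lemma rho_nonneg (H S : Finset X) : 0 ≤ rho G H S :=
  ex_nonneg isPMF_unif fun _ _ => ind_nonneg _

lemma rho_pos {H S : Finset X} (h : S ⊆ H) : 0 < rho G H S := by
  have h1 := le_ex_single (isPMF_unif (Ω := G)) (f := fun g : G => ind (g • S ⊆ H))
    (fun _ => ind_nonneg _) 1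
  rw [ind_pos (by simpa using h), mul_one] at h1
  refine lt_of_lt_of_le ?_ h1
  unfold unif
  have : (0 : ℝ) < Fintype.card G := by exact_mod_cast Fintype.card_pos
  positivity

/-- Lower bound on the entropy from large orbits. -/
lemma gent_ge_sparse (hw : IsPMF w) {H : Finset X} {p : ℝ} (hp : 0 < p)
    (hs : ∀ S ⊆ H, 1 / 2 ≤ orb G S * p ^ S.card) (W : Ω → Finset X)
    (hW : ∀ ω, w ω ≠ 0 → W ω ⊆ H) :
    - Real.log p * ex w (fun ω => ((W ω).card : ℝ)) - Real.log 2 ≤ gent G w W := by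
  rw [gent_eq, ← ex_neg, ← ex_const_mul, ← ex_const hw (Real.log 2), ← ex_sub]
  refine ex_mono hw fun ω h0 => ?_
  have h1 : orb G (W ω) * pbar G w W (W ω) ≤ 1 := by
    rw [← sum_pbar (G := G) hw W]
    have : orb G (W ω) * pbar G w W (W ω)
        = ∑ T ∈ Finset.univ.image (fun g : G => g • W ω), pbar G w W T := by
      rw [Finset.sum_congr rfl (g := fun _ => pbar G w W (W ω)) fun T hT => by
        obtain ⟨g, -, rfl⟩ := Finset.mem_image.1 hT
        exact pbar_smul W g _]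
      simp [orb]
    rw [this]
    exact Finset.sum_le_sum_of_subset_of_nonneg (Finset.subset_univ _)
      fun T _ _ => pbar_nonneg hw W T
  have h2 := hs (W ω) (hW ω h0)
  have h3 := pbar_pos (G := G) hw W h0
  have h4 : 0 < p ^ (W ω).card := pow_pos hp _
  have h5 : pbar G w W (W ω) ≤ 2 * p ^ (W ω).card := by nlinarith
  have h6 := Real.log_le_log h3 h5
  rw [Real.log_mul (by norm_num) h4.ne', Real.log_pow] at h6
  linarith

/-- Upper bound on the entropy of a translate lying in `H`, from spreadness. -/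
lemma ent_le_spread (hw : IsPMF w) (hw' : IsPMF w') {π : Ω' → Ω} (hπ : MP w' w π)
    {H : Finset X} {q : ℝ} (hq : ∀ S, rho G H S ≤ q ^ S.card)
    (W : Ω → Finset X) (Y : Ω' → Finset X) (g : Ω' → G) (hY : ∀ ω', Y ω' = g ω' • W (π ω'))
    (hH : ∀ ω', w' ω' ≠ 0 → Y ω' ⊆ H) :
    ent w' Y ≤ gent G w W + Real.log q * ex w (fun ω => ((W ω).card : ℝ)) := by
  have h1 := ent_le_of_kernel hw' Y (fun y => pbar G w W y * ind (y ⊆ H) / rho G H y)
    (fun y => div_nonneg (mul_nonneg (pbar_nonneg hw W y) (ind_nonneg _)) (rho_nonneg H y))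
    (by
      have e1 : ∀ g : G, ∑ y, pbar G w W y * ind (y ⊆ H) / rho G H y
          = ∑ y, pbar G w W y / rho G H y * ind (g • y ⊆ H) := by
        intro g
        rw [← Equiv.sum_comp (MulAction.toPerm g : Equiv.Perm (Finset X))]
        refine Finset.sum_congr rfl fun y _ => ?_
        simp only [MulAction.toPerm_apply, pbar_smul, rho_smul]
        ring
      rw [← ex_const (isPMF_unif (Ω := G)) (∑ y, pbar G w W y * ind (y ⊆ H) / rho G H y)]
      rw [ex_congr fun g _ => e1 g, ex_sum, ← sum_pbar (G := G) hw W]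
      refine Finset.sum_le_sum fun y _ => ?_
      rw [ex_const_mul]
      change _ * rho G H y ≤ _
      by_cases h : rho G H y = 0
      · rw [h, mul_zero]; exact pbar_nonneg hw W y
      · rw [div_mul_cancel₀ _ h])
    (fun ω' h0 => by
      rw [ind_pos (hH ω' h0), mul_one]
      refine div_pos ?_ (rho_pos (hH ω' h0))
      rw [hY, pbar_smul]
      exact pbar_pos hw W (hπ.ne_zero hw' h0))
  refine h1.trans ?_
  rw [gent_eq, ← hπ (fun ω => Real.log (pbar G w W (W ω))), ← hπ (fun ω => ((W ω).card : ℝ)),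
    ← ex_neg, ← ex_neg, ← ex_const_mul, ← ex_add]
  refine ex_mono hw' fun ω' h0 => ?_
  have h2 := rho_pos (G := G) (hH ω' h0)
  have h3 := pbar_pos (G := G) hw W (hπ.ne_zero hw' h0)
  have h4 := Real.log_le_log h2 (hq (Y ω'))
  rw [ind_pos (hH ω' h0), mul_one, Real.log_div _ h2.ne']
  · rw [Real.log_pow] at h4
    rw [hY] at h4 ⊢
    rw [pbar_smul]
    rw [Finset.card_smul_finset] at h4
    linarith
  · rw [hY, pbar_smul]; exact h3.ne'

section states

variable {β : Type} [MulAction G β] {ξ : Type}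

variable (G) in
/-- The potential of a state. -/
noncomputable def Vf (c : ℝ) (w : Ω → ℝ) (B : Ω → β) (Ξ : Ω → ξ) (U : β → Finset X) : ℝ :=
  gent G w B - cent w B Ξ + c * ex w (fun ω => ((U (B ω)).card : ℝ))
    - conc w (fun ω => U (B ω)) Ξ

lemma conc_nonneg (hw : IsPMF w) (U : Ω → Finset X) (Ξ : Ω → ξ) : 0 ≤ conc w U Ξ :=
  Finset.sum_nonneg fun _ _ => ex_nonneg hw fun _ _ =>
    ph_nonneg (cex_nonneg hw Ξ (fun _ _ => ind_nonneg _) _)

lemma conc_le (hw : IsPMF w) (U : Ω → Finset X) (Ξ : Ω → ξ) :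
    conc w U Ξ ≤ Fintype.card X := by
  unfold conc
  refine (Finset.sum_le_sum (g := fun _ => (1 : ℝ)) fun e _ => ex_le_const hw fun _ _ =>
    ph_le_one (cex_nonneg hw Ξ (fun _ _ => ind_nonneg _) _)
      (cex_le_one hw Ξ (fun _ _ => ind_le_one _) _)).trans ?_
  simp

lemma conc_mp {π : Ω' → Ω} (h : MP w' w π) (U : Ω → Finset X) (Ξ : Ω → ξ) :
    conc w' (fun ω' => U (π ω')) (fun ω' => Ξ (π ω')) = conc w U Ξ := by
  unfold conc
  refine Finset.sum_congr rfl fun e _ => ?_
  rw [← h (fun ω => ph (cex w Ξ (fun ω => ind (e ∈ U ω)) (Ξ ω)))]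
  congr 1; funext ω'
  rw [← h.cex_eq Ξ (fun ω => ind (e ∈ U ω))]

lemma Vf_lower [Fintype β] (hw : IsPMF w) (c : ℝ) (B : Ω → β) (Ξ : Ω → ξ) (U : β → Finset X) :
    - ((|c| + 1) * Fintype.card X) ≤ Vf G c w B Ξ U := by
  unfold Vf
  have h1 := cent_le_ent hw B Ξ
  have h2 := ent_le_gent (G := G) hw B
  have h3 := conc_le hw (fun ω => U (B ω)) Ξ
  have h4 : ex w (fun ω => ((U (B ω)).card : ℝ)) ≤ Fintype.card X :=
    ex_le_const hw fun ω _ => by exact_mod_cast Finset.card_le_univ _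
  have h5 : 0 ≤ ex w (fun ω => ((U (B ω)).card : ℝ)) := ex_nonneg hw fun _ _ => by positivity
  have h6 := neg_abs_le c
  have h7 := abs_nonneg c
  nlinarith

lemma conc_coup (hw : IsPMF w) (U : Ω → Finset X) (Ξ : Ω → ξ) :
    17 / 8 * conc w U Ξ - 2 * ex (coup w Ξ) (fun p => ((U p.1 ∩ U p.2).card : ℝ))
      ≤ conc (coup w Ξ) (fun p => U p.1 ∪ U p.2) (fun p => Ξ p.1) := by
  rw [ex_card]
  unfold conc
  rw [Finset.mul_sum, Finset.mul_sum, ← Finset.sum_sub_distrib]
  refine Finset.sum_le_sum fun e _ => ?_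
  have e1 : ex (coup w Ξ) (fun p => ind (e ∈ U p.1 ∩ U p.2))
      = ex w (fun ω => cex w Ξ (fun ω => ind (e ∈ U ω)) (Ξ ω)
        * cex w Ξ (fun ω => ind (e ∈ U ω)) (Ξ ω)) := by
    have := ex_coup_mul hw Ξ (fun ω => ind (e ∈ U ω)) (fun ω => ind (e ∈ U ω)) (fun _ => 1)
    simp only [one_mul] at this
    rw [← this]
    congr 1; funext p
    rw [← ind_and]; exact ind_congr Finset.mem_inter
  rw [e1, mp_coup_fst hw Ξ (fun ω => ph (cex (coup w Ξ) (fun p => Ξ p.1)
    (fun p => ind (e ∈ U p.1 ∪ U p.2)) (Ξ ω))), ← ex_const_mul, ← ex_const_mul, ← ex_sub]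
  refine ex_mono hw fun ω h0 => ?_
  have e2 : (fun p : Ω × Ω => ind (e ∈ U p.1 ∪ U p.2))
      = fun p => ind (e ∈ U p.1) * 1 + 1 * ind (e ∈ U p.2) - ind (e ∈ U p.1) * ind (e ∈ U p.2) := by
    funext p
    by_cases h1 : e ∈ U p.1 <;> by_cases h2 : e ∈ U p.2 <;> simp [ind, h1, h2]
  rw [e2, cex_sub, cex_add,
    cex_coup_mul hw Ξ (fun ω => ind (e ∈ U ω)) (fun _ => 1) h0,
    cex_coup_mul hw Ξ (fun _ => 1) (fun ω => ind (e ∈ U ω)) h0,
    cex_coup_mul hw Ξ (fun ω => ind (e ∈ U ω)) (fun ω => ind (e ∈ U ω)) h0,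
    cex_const hw Ξ 1 h0, mul_one, one_mul]
  exact ph_double (cex_nonneg hw Ξ (fun _ _ => ind_nonneg _) _)
    (cex_le_one hw Ξ (fun _ _ => ind_le_one _) _)

/-- The doubling step. -/
lemma doubling (hw : IsPMF w) (c : ℝ) (B : Ω → β) (Ξ : Ω → ξ) (U : β → Finset X) :
    Vf G c (coup w Ξ) (fun p => (B p.1, B p.2)) (fun p => Ξ p.1) (fun b => U b.1 ∪ U b.2)
      ≤ 2 * Vf G c w B Ξ U
        + 2 * cent (prodW (unif G) (coup w Ξ)) (fun t => t.1 • (U (B t.2.1) ∩ U (B t.2.2)))
            (fun t => t.1 • B t.2.1)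
        - gent G (coup w Ξ) (fun p => U (B p.1) ∩ U (B p.2))
        - (c - 2) * ex (coup w Ξ) (fun p => ((U (B p.1) ∩ U (B p.2)).card : ℝ))
        - 1 / 8 * conc w (fun ω => U (B ω)) Ξ := by
  have hc := isPMF_coup hw Ξ
  have hT := isPMF_prodW (isPMF_unif (Ω := G)) hc
  have h1 := cent_coup hw Ξ B B
  have h2 := ent_pair_le hT (fun t => t.1 • B t.2.1) (fun t => t.1 • B t.2.2)
    (fun t => t.1 • (U (B t.2.1) ∩ U (B t.2.2)))
  have h3 : ent (prodW (unif G) (coup w Ξ))
        (fun t => (t.1 • B t.2.2, t.1 • (U (B t.2.1) ∩ U (B t.2.2))))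
      = ent (prodW (unif G) (coup w Ξ))
        (fun t => (t.1 • B t.2.1, t.1 • (U (B t.2.1) ∩ U (B t.2.2)))) := by
    rw [← ((mp_coup_swap (w := w) Ξ).prod_right (w := unif G)).ent_eq
      (fun t => (t.1 • B t.2.1, t.1 • (U (B t.2.1) ∩ U (B t.2.2))))]
    simp only [Prod.fst_swap, Prod.snd_swap, Finset.inter_comm]
  have h4 : ent (prodW (unif G) (coup w Ξ))
        (fun t => (t.1 • B t.2.1, t.1 • (U (B t.2.1) ∩ U (B t.2.2))))
      = ent (prodW (unif G) (coup w Ξ))
        (fun t => (t.1 • (U (B t.2.1) ∩ U (B t.2.2)), t.1 • B t.2.1)) :=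
    ent_congr_det fun _ _ _ _ => by simp only [Prod.mk.injEq]; tauto
  have h5 : ent (prodW (unif G) (coup w Ξ)) (fun t => t.1 • B t.2.1) = gent G w B :=
    gent_mp (mp_coup_fst hw Ξ) B
  have h6 : ex (coup w Ξ) (fun p => ((U (B p.1) ∪ U (B p.2)).card : ℝ))
      = 2 * ex w (fun ω => ((U (B ω)).card : ℝ))
        - ex (coup w Ξ) (fun p => ((U (B p.1) ∩ U (B p.2)).card : ℝ)) := by
    rw [two_mul]
    nth_rewrite 1 [← mp_coup_fst hw Ξ (fun ω => ((U (B ω)).card : ℝ))]
    rw [← mp_coup_snd hw Ξ (fun ω => ((U (B ω)).card : ℝ)), ← ex_add, ← ex_sub]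
    congr 1; funext p
    have := Finset.card_union_add_card_inter (U (B p.1)) (U (B p.2))
    have h : ((U (B p.1) ∪ U (B p.2)).card : ℝ) + ((U (B p.1) ∩ U (B p.2)).card : ℝ)
      = (U (B p.1)).card + (U (B p.2)).card := by exact_mod_cast this
    linarith
  have h7 := conc_coup hw (fun ω => U (B ω)) Ξ
  have h8 : gent G (coup w Ξ) (fun p => (B p.1, B p.2)) = ent (prodW (unif G) (coup w Ξ))
    (fun t => (t.1 • B t.2.1, t.1 • B t.2.2)) := rfl
  have h9 : gent G (coup w Ξ) (fun p => U (B p.1) ∩ U (B p.2)) = ent (prodW (unif G) (coup w Ξ))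
    (fun t => t.1 • (U (B t.2.1) ∩ U (B t.2.2))) := rfl
  unfold Vf
  rw [h1, h6, h8, h9]
  have h10 : cent (prodW (unif G) (coup w Ξ)) (fun t => t.1 • (U (B t.2.1) ∩ U (B t.2.2)))
      (fun t => t.1 • B t.2.1) = ent (prodW (unif G) (coup w Ξ))
        (fun t => (t.1 • (U (B t.2.1) ∩ U (B t.2.2)), t.1 • B t.2.1))
        - ent (prodW (unif G) (coup w Ξ)) (fun t => t.1 • B t.2.1) := rfl
  rw [h10]
  linarith

end states

variable (G) in
/-- `D` is a lower bound for the potential of all states. -/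
def LB (H : Finset X) (c D : ℝ) : Prop :=
  ∀ (Ω : Type) [Fintype Ω] (w : Ω → ℝ) (β : Type) [Fintype β] [MulAction G β] (ξ : Type)
    (B : Ω → β) (Ξ : Ω → ξ) (U : β → Finset X), IsPMF w → (∀ (g : G) b, U (g • b) = g • U b) →
    (∀ ω, w ω ≠ 0 → U (B ω) ⊆ H) → D ≤ Vf G c w B Ξ U

lemma LB_step {H : Finset X} {p q : ℝ} (hp : 0 < p)
    (hs : ∀ S ⊆ H, 1 / 2 ≤ orb G S * p ^ S.card) (hq : ∀ S, rho G H S ≤ q ^ S.card) {c D : ℝ}
    (hc : c = 3 / 4 * Real.log q + 1 / 4 * Real.log p + 33 / 4) (hD : LB G H c D) :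
    LB G H c ((69 * D - 16 * Real.log 2) / 133) := by
  intro Ω _ w β _ _ ξ B Ξ U hw hU hH
  have hw2 := isPMF_coup hw Ξ
  have m1 := mp_coup_fst hw Ξ
  have m2 := mp_coup_snd hw Ξ
  -- the doubled state
  have hd := doubling (G := G) hw c B Ξ U
  have hD1 := hD (Ω × Ω) (coup w Ξ) (β × β) ξ (fun p => (B p.1, B p.2)) (fun p => Ξ p.1)
    (fun b => U b.1 ∪ U b.2) hw2
    (fun g b => by simp only [Prod.smul_fst, Prod.smul_snd, hU, Finset.smul_finset_union])
    (fun p h => Finset.union_subset (hH _ (m1.ne_zero hw2 h)) (hH _ (m2.ne_zero hw2 h)))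
  -- the twin
  set W : Ω × Ω → Finset X := fun p => U (B p.1) ∩ U (B p.2) with hWdef
  have hT := isPMF_prodW (isPMF_unif (Ω := G)) hw2
  set wT := prodW (unif G) (coup w Ξ) with hwT
  set O : G × (Ω × Ω) → β := fun t => t.1 • B t.2.1 with hO
  have hP := isPMF_coup hT O
  set wP := coup wT O with hwP
  have mT : MP wT (coup w Ξ) Prod.snd := mp_prod_snd isPMF_unif
  have n1 : MP wP w (fun p => p.1.2.1) := (m1.comp mT).comp (mp_coup_fst hT O)
  have n2 : MP wP (coup w Ξ) (fun p => p.2.2) := mT.comp (mp_coup_snd hT O)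
  set Y : (G × (Ω × Ω)) × (G × (Ω × Ω)) → Finset X :=
    fun p => (p.1.1⁻¹ * p.2.1) • W p.2.2 with hY
  have hYU : ∀ p, wP p ≠ 0 → Y p ⊆ U (B p.1.2.1) := by
    intro p h
    have h1 : p.2.1 • B p.2.2.1 = p.1.1 • B p.1.2.1 := coup_eq_of_ne_zero O h
    have h2 : B p.1.2.1 = (p.1.1⁻¹ * p.2.1) • B p.2.2.1 := by
      rw [mul_smul, h1, inv_smul_smul]
    rw [h2, hU]
    exact Finset.smul_finset_subset_smul_finset Finset.inter_subset_left
  have hYH : ∀ p, wP p ≠ 0 → Y p ⊆ H := fun p h => (hYU p h).trans (hH _ (n1.ne_zero hP h))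
  have hD2 := hD _ wP β (ξ × Finset X) (fun p => B p.1.2.1) (fun p => (Ξ p.1.2.1, Y p)) U hP hU
    (fun p h => hH _ (n1.ne_zero hP h))
  have hEY : ex wP (fun p => ((Y p).card : ℝ)) = ex (coup w Ξ) (fun p => ((W p).card : ℝ)) := by
    rw [← n2 (fun p => ((W p).card : ℝ))]
    congr 1; funext p
    simp only [hY, Finset.card_smul_finset]
  have hl : cent wT (fun t => t.1 • W t.2) O
      ≤ cent wP Y (fun p => (B p.1.2.1, Ξ p.1.2.1)) := by
    rw [← cent_coup_snd hT O (fun t => t.1 • W t.2)]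
    have e : cent wP (fun p => p.2.1 • W p.2.2) (fun p => p.1) = cent wP Y (fun p => p.1) :=
      cent_congr_det (fun _ _ _ _ => Iff.rfl) fun p p' _ _ h => by
        simp only [hY, mul_smul, h, smul_left_cancel_iff]
    rw [e]
    exact cent_le_of_det hP Y fun p p' _ _ h => by rw [h]
  have F1 := gent_ge_sparse hw2 hp hs W fun p h =>
    Finset.inter_subset_left.trans (hH _ (m1.ne_zero hw2 h))
  have F2 := ent_le_spread hw2 hP n2 hq W Y (fun p => p.1.1⁻¹ * p.2.1) (fun _ => rfl) hYH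
  have F3 := cent_le_ent hP Y (fun p => Ξ p.1.2.1)
  have K := key_lemma hP (fun p => U (B p.1.2.1)) Y hYU (fun p => Ξ p.1.2.1)
    (fun p => (B p.1.2.1, Ξ p.1.2.1)) fun p p' _ _ h => by
      simp only [Prod.mk.injEq] at h
      rw [h.1, h.2]; exact ⟨rfl, rfl⟩
  have S := cent_symm (w := wP) (fun p => B p.1.2.1) Y (fun p => Ξ p.1.2.1)
  have S1 : cent wP (fun p => B p.1.2.1) (fun p => (Y p, Ξ p.1.2.1))
      = cent wP (fun p => B p.1.2.1) (fun p => (Ξ p.1.2.1, Y p)) :=
    cent_congr_det (fun _ _ _ _ => by simp only [Prod.mk.injEq]; tauto) fun _ _ _ _ _ => Iff.rfl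
  have S2 : cent wP Y (fun p => (B p.1.2.1, Ξ p.1.2.1)) ≤ cent wP Y (fun p => Ξ p.1.2.1) :=
    cent_le_of_det hP Y fun _ _ _ _ h => (Prod.ext_iff.1 h).2
  have S3 := n1.cent_eq B Ξ
  have S4 := gent_mp (G := G) n1 B
  have S5 := n1 (fun ω => ((U (B ω)).card : ℝ))
  have C0 := conc_nonneg hw (fun ω => U (B ω)) Ξ
  unfold Vf at hD2 hd ⊢
  unfold Vf at hD1
  rw [S4, S5] at hD2
  rw [hEY] at K
  rw [S1, S3] at S
  have hcW : c * ex (coup w Ξ) (fun p => ((W p).card : ℝ))
      = 3 / 4 * (Real.log q * ex (coup w Ξ) (fun p => ((W p).card : ℝ)))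
        + 1 / 4 * (Real.log p * ex (coup w Ξ) (fun p => ((W p).card : ℝ)))
        + 33 / 4 * ex (coup w Ξ) (fun p => ((W p).card : ℝ)) := by
    rw [hc]; ring
  change _ ≤ _ + 2 * cent wT (fun t => t.1 • W t.2) O - _
    - (c - 2) * ex (coup w Ξ) (fun p => ((W p).card : ℝ)) - _ at hd
  rw [div_le_iff₀ (by norm_num)]
  linarith

lemma LB_final {H : Finset X} {p q : ℝ} (hp : 0 < p)
    (hs : ∀ S ⊆ H, 1 / 2 ≤ orb G S * p ^ S.card) (hq : ∀ S, rho G H S ≤ q ^ S.card) {c : ℝ}
    (hc : c = 3 / 4 * Real.log q + 1 / 4 * Real.log p + 33 / 4) :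
    LB G H c (- (1 / 4)) := by
  have hl : Real.log 2 < 0.6931471808 := Real.log_two_lt_d9
  have h0 : 0 < Real.log 2 := Real.log_pos (by norm_num)
  set M : ℝ := (|c| + 1) * Fintype.card X with hM
  have hk : ∀ k : ℕ, LB G H c (- (Real.log 2 / 4) - (69 / 133) ^ k * M) := by
    intro k
    induction k with
    | zero =>
      intro Ω _ w β _ _ ξ B Ξ U hw _ _
      have := Vf_lower (G := G) hw c B Ξ U
      rw [pow_zero]; linarith
    | succ k ih =>
      have := LB_step hp hs hq hc ih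
      convert this using 1
      rw [pow_succ]; ring
  have hM0 : 0 ≤ M := by positivity
  obtain ⟨k, hk1⟩ := exists_pow_lt_of_lt_one (show (0 : ℝ) < 1 / 20 / (M + 1) by positivity)
    (show (69 / 133 : ℝ) < 1 by norm_num)
  rw [lt_div_iff₀ (by positivity)] at hk1
  intro Ω _ w β _ _ ξ B Ξ U hw hU hH
  have h1 := hk k Ω w β ξ B Ξ U hw hU hH
  have h2 : (0 : ℝ) ≤ (69 / 133) ^ k := by positivity
  nlinarith

lemma exponent_bound {H : Finset X} {p q : ℝ} (hp : 0 < p)
    (hs : ∀ S ⊆ H, 1 / 2 ≤ orb G S * p ^ S.card) (hq : ∀ S, rho G H S ≤ q ^ S.card)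
    (S : Finset X) (hS : S.Nonempty) (hpos : 0 < rho G H S)
    (hSq : Real.log (rho G H S) = S.card * Real.log q) : Real.log q ≤ 34 + Real.log p := by
  have hG : (0 : ℝ) < Fintype.card G := by exact_mod_cast Fintype.card_pos
  let w : G → ℝ := fun g => unif G g * ind (g • S ⊆ H) / rho G H S
  have hw : IsPMF w := ⟨fun g => div_nonneg (mul_nonneg ((isPMF_unif (Ω := G)).nonneg g)
      (ind_nonneg _)) hpos.le, by
    simp only [w]
    rw [← Finset.sum_div]
    exact div_self hpos.ne'⟩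
  have hsupp : ∀ g, w g ≠ 0 → g • S ⊆ H := fun g h => by
    by_contra h1
    apply h; simp only [w]; rw [ind_neg h1]; simp
  have h1 := LB_final hp hs hq rfl G w G Unit id (fun _ => ()) (fun g => g • S) hw
    (fun g b => by simp [mul_smul]) hsupp
  unfold Vf at h1
  have h2 : gent G w (id : G → G) ≤ Real.log (Fintype.card G) := by
    have := ent_le_of_kernel (isPMF_prodW (isPMF_unif (Ω := G)) hw)
      (fun p : G × G => p.1 • id p.2) (unif G) (isPMF_unif (Ω := G)).nonneg
      (isPMF_unif (Ω := G)).sum_one.le (fun _ _ => by unfold unif; positivity)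
    refine this.trans (le_of_eq ?_)
    change - ex _ (fun _ => Real.log (1 / (Fintype.card G : ℝ))) = _
    rw [ex_const (isPMF_prodW (isPMF_unif (Ω := G)) hw), one_div, Real.log_inv, neg_neg]
  have h3 : cent w (id : G → G) (fun _ => ())
      = Real.log (Fintype.card G) + Real.log (rho G H S) := by
    rw [cent_const hw]
    unfold ent
    rw [← ex_neg, ← ex_const hw (Real.log (Fintype.card G) + Real.log (rho G H S))]
    refine ex_congr fun g h0 => ?_
    have e : pr w id (id g) = w g := by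
      unfold pr ex
      simp only [id]
      rw [← sum_ind_eq g w]
      exact Finset.sum_congr rfl fun a _ => by rw [mul_comm, ind_congr eq_comm]
    rw [e]
    simp only [w, unif]
    rw [ind_pos (hsupp g h0), mul_one, Real.log_div (by positivity) hpos.ne', one_div,
      Real.log_inv]
    ring
  have h4 : ex w (fun g => (((id g : G) • S).card : ℝ)) = S.card := by
    simp only [Finset.card_smul_finset]
    exact ex_const hw _
  have h5 := conc_nonneg hw (fun g => (id g : G) • S) (fun _ => ())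
  rw [h3, h4, hSq] at h1
  have h6 : (1 : ℝ) ≤ S.card := by exact_mod_cast hS.card_pos
  by_contra h7
  push Not at h7
  nlinarith

/-- Large orbits of all subsets give spread random translates. -/
theorem rho_le {H : Finset X} {p : ℝ} (hp : 0 < p)
    (hs : ∀ S ⊆ H, 1 / 2 ≤ orb G S * p ^ S.card) (S : Finset X) :
    rho G H S ≤ (Real.exp 34 * p) ^ S.card := by
  have hempty : rho G H ∅ ≤ 1 := ex_le_const isPMF_unif fun _ _ => ind_le_one _
  by_cases hS : S.Nonempty ∧ 0 < rho G H S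
  swap
  · rw [not_and_or] at hS
    rcases hS with hS | hS
    · rw [Finset.not_nonempty_iff_eq_empty] at hS
      subst hS; simpa using hempty
    · push Not at hS
      exact hS.trans (by positivity)
  obtain ⟨S0, hS0, hmax⟩ := Finset.exists_max_image
    (Finset.univ.filter fun T : Finset X => T.Nonempty ∧ 0 < rho G H T)
    (fun T => Real.log (rho G H T) / T.card) ⟨S, by simpa using hS⟩
  simp only [Finset.mem_filter, Finset.mem_univ, true_and] at hS0 hmax
  have hq : ∀ T, rho G H T ≤ Real.exp (Real.log (rho G H S0) / S0.card) ^ T.card := by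
    intro T
    by_cases hT : T.Nonempty ∧ 0 < rho G H T
    · have h1 := hmax T hT
      have h2 : (0 : ℝ) < T.card := by exact_mod_cast hT.1.card_pos
      rw [div_le_iff₀ h2] at h1
      rw [← Real.exp_nat_mul, ← Real.exp_log hT.2]
      exact Real.exp_le_exp.2 (by linarith)
    · rw [not_and_or] at hT
      rcases hT with hT | hT
      · rw [Finset.not_nonempty_iff_eq_empty] at hT
        subst hT; simpa using hempty
      · push Not at hT
        exact hT.trans (by positivity)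
  have h2 : (0 : ℝ) < S0.card := by exact_mod_cast hS0.1.card_pos
  have h3 := exponent_bound hp hs hq S0 hS0.1 hS0.2 (by rw [Real.log_exp]; field_simp)
  rw [Real.log_exp] at h3
  refine (hq S).trans (pow_le_pow_left₀ (Real.exp_pos _).le ?_ _)
  rw [← Real.exp_log hp, ← Real.exp_add]
  exact Real.exp_le_exp.2 h3

end sets

end Crest.Agent.R055
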