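import Crest.Agent.Lib.FinEnt.Basic

/-!
The key entropy inequality for a random subset `Y` of a random set `U`.
-/

set_option autoImplicit false
set_option linter.unusedSectionVars false
set_option linter.unusedVariables false

namespace Crest.Agent.R055

open Finset Crest.Agent.Lib.FinEnt
open scoped Classical

/-- `x ^ (3/2)`. -/
noncomputable def ph (x : ℝ) : ℝ := x * Real.sqrt x

lemma ph_nonneg {x : ℝ} (hx : 0 ≤ x) : 0 ≤ ph x := mul_nonneg hx (Real.sqrt_nonneg x)

lemma ph_le_one {x : ℝ} (hx : 0 ≤ x) (h1 : x ≤ 1) : ph x ≤ 1 :=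
  mul_le_one₀ h1 (Real.sqrt_nonneg x) (Real.sqrt_le_one.mpr h1)

lemma young_aux {x m : ℝ} (hx : 0 ≤ x) (hm : 0 ≤ m) :
    m ^ (1 / 3 : ℝ) * x ≤ 2 / 3 * ph x + 1 / 3 * m := by
  have ht : 0 ≤ m ^ (1 / 3 : ℝ) := Real.rpow_nonneg hm _
  have ht3 : (m ^ (1 / 3 : ℝ)) ^ 3 = m := by
    rw [← Real.rpow_natCast, ← Real.rpow_mul hm]; norm_num
  have hs := Real.sqrt_nonneg x
  have hs2 := Real.sq_sqrt hx
  unfold ph
  set t := m ^ (1 / 3 : ℝ)
  set s := Real.sqrt x
  have : 0 ≤ (s - t) ^ 2 * (2 * s + t) := by positivity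
  rw [← ht3, ← hs2]
  nlinarith

variable {Ω : Type*} [Fintype Ω] {w : Ω → ℝ} {α γ δ : Type*}

lemma binary_step (hw : IsPMF w) (b u : Ω → Bool) (hbu : ∀ ω, w ω ≠ 0 → b ω = true → u ω = true)
    (Z : Ω → γ) (f : γ → δ) (V : Ω → α)
    (hV : ∀ ω ω', w ω ≠ 0 → w ω' ≠ 0 → V ω' = V ω → u ω' = u ω ∧ f (Z ω') = f (Z ω)) :
    3 / 2 * cent w b V ≤ 1 / 2 * cent w b (fun ω => f (Z ω)) + 5 * ex w (fun ω => ind (b ω = true))
      + 1 / 16 * ex w (fun ω => ph (cex w Z (fun ω => ind (u ω = true)) (Z ω))) := by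
  set Z0 : Ω → δ := fun ω => f (Z ω) with hZ0
  set m : δ → ℝ := cex w Z0 (fun ω => ind (b ω = true)) with hm
  have hm0 : ∀ z, 0 ≤ m z := fun z => cex_nonneg hw Z0 (fun _ _ => ind_nonneg _) z
  have hmpos : ∀ ω, w ω ≠ 0 → b ω = true → 0 < m (Z0 ω) := by
    intro ω h0 hb
    rw [hm, cex_ind_eq]
    have := pr_pos hw (fun ω => (b ω, Z0 ω)) h0
    simp only [hb] at this
    exact div_pos this (pr_pos hw Z0 h0)
  set ww : δ → ℝ := fun z => 1 / 16 * m z ^ (1 / 3 : ℝ) with hww
  have hww0 : ∀ z, 0 ≤ ww z := fun z => mul_nonneg (by norm_num) (Real.rpow_nonneg (hm0 z) _)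
  have h1 : cent w b V ≤ cent w b (fun ω => (u ω, Z0 ω)) :=
    cent_le_of_det hw b fun ω ω' h0 h0' h => by
      obtain ⟨h1, h2⟩ := hV ω ω' h0 h0' h
      simp only [hZ0, h1, h2]
  let r : Bool → Bool × δ → ℝ := fun a x =>
    if x.1 = true then (if a = true then ww x.2 / (1 + ww x.2) else 1 / (1 + ww x.2))
    else (if a = true then 0 else 1)
  have h2 := cent_le_of_kernel hw b (fun ω => (u ω, Z0 ω)) r
    (fun a x => by
      have := hww0 x.2
      simp only [r]; split_ifs <;> positivity)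
    (fun x => by
      have := hww0 x.2
      simp only [r, Fintype.sum_bool]
      split_ifs with h
      all_goals first | (exfalso; simp_all; done) | skip
      · apply le_of_eq; field_simp; ring
      · norm_num)
    (fun ω h0 => by
      have := hww0 (Z0 ω)
      simp only [r]
      by_cases hb : b ω = true
      · have hu := hbu ω h0 hb
        have hp : 0 < ww (Z0 ω) := mul_pos (by norm_num) (Real.rpow_pos_of_pos (hmpos ω h0 hb) _)
        rw [if_pos hu, if_pos hb]; positivity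
      · rw [if_neg hb, if_neg hb]; split_ifs <;> positivity)
  have h3 : - ex w (fun ω => Real.log (r (b ω) (u ω, Z0 ω))) ≤
      ex w (fun ω => ind (b ω = true) * (4 * Real.log 2 - 1 / 3 * Real.log (m (Z0 ω)))
        + ww (Z0 ω) * ind (u ω = true)) := by
    rw [← ex_neg]
    refine ex_mono hw fun ω h0 => ?_
    have hw0 := hww0 (Z0 ω)
    have hl : Real.log (1 + ww (Z0 ω)) ≤ ww (Z0 ω) := by
      have := Real.log_le_sub_one_of_pos (show 0 < 1 + ww (Z0 ω) by positivity)
      linarith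
    simp only [r]
    by_cases hb : b ω = true
    · have hu := hbu ω h0 hb
      have hmp := hmpos ω h0 hb
      have hp : 0 < ww (Z0 ω) := mul_pos (by norm_num) (Real.rpow_pos_of_pos hmp _)
      rw [if_pos hu, if_pos hb, ind_pos hb, ind_pos hu, Real.log_div hp.ne' (by positivity)]
      have : Real.log (ww (Z0 ω)) = - (4 * Real.log 2) + 1 / 3 * Real.log (m (Z0 ω)) := by
        simp only [hww]
        rw [Real.log_mul (by norm_num) (Real.rpow_pos_of_pos hmp _).ne', Real.log_rpow hmp]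
        have : (1 / 16 : ℝ) = (2 ^ 4)⁻¹ := by norm_num
        rw [this, Real.log_inv, Real.log_pow]; push_cast; ring
      linarith
    · rw [if_neg hb, if_neg hb, ind_neg hb]
      by_cases hu : u ω = true
      · rw [if_pos hu, ind_pos hu, one_div, Real.log_inv]; linarith
      · rw [if_neg hu, ind_neg hu]; simp
  have h4 : - ex w (fun ω => ind (b ω = true) * Real.log (m (Z0 ω))) ≤ cent w b Z0 := by
    rw [cent_eq hw]
    refine neg_le_neg (ex_mono hw fun ω h0 => ?_)
    by_cases hb : b ω = true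
    · rw [ind_pos hb, one_mul, hm, cex_ind_eq, hb]
    · rw [ind_neg hb, zero_mul, ← cex_ind_eq]
      exact Real.log_nonpos (cex_nonneg hw Z0 (fun _ _ => ind_nonneg _) _)
        (cex_le_one hw Z0 (fun _ _ => ind_le_one _) _)
  have h5 : ex w (fun ω => ww (Z0 ω) * ind (u ω = true)) ≤
      1 / 16 * (2 / 3 * ex w (fun ω => ph (cex w Z (fun ω => ind (u ω = true)) (Z ω)))
        + 1 / 3 * ex w (fun ω => ind (b ω = true))) := by
    rw [← ex_div_pr hw Z (fun ω => ind (u ω = true)) (fun z => ww (f z))]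
    have e : ex w (fun ω => ind (b ω = true)) = ex w (fun ω => m (Z0 ω)) := by
      have := ex_div_pr hw Z0 (fun ω => ind (b ω = true)) (fun _ => 1)
      simp only [one_mul] at this
      exact this.symm
    rw [e, ← ex_const_mul, ← ex_const_mul, ← ex_add, ← ex_const_mul]
    refine ex_mono hw fun ω _ => ?_
    have := young_aux (cex_nonneg hw Z (f := fun ω => ind (u ω = true))
      (fun _ _ => ind_nonneg _) (Z ω)) (hm0 (Z0 ω))
    simp only [hww]
    nlinarith
  rw [ex_add] at h3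
  have e2 : ex w (fun ω => ind (b ω = true) * (4 * Real.log 2 - 1 / 3 * Real.log (m (Z0 ω))))
      = 4 * Real.log 2 * ex w (fun ω => ind (b ω = true))
        - 1 / 3 * ex w (fun ω => ind (b ω = true) * Real.log (m (Z0 ω))) := by
    rw [← ex_const_mul, ← ex_const_mul, ← ex_sub]
    congr 1; funext ω; ring
  have hb0 : 0 ≤ ex w (fun ω => ind (b ω = true)) := ex_nonneg hw fun _ _ => ind_nonneg _
  have hl2 : Real.log 2 < 0.6931471808 := Real.log_two_lt_d9
  have : Real.log 2 * ex w (fun ω => ind (b ω = true))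
      ≤ 0.7 * ex w (fun ω => ind (b ω = true)) := mul_le_mul_of_nonneg_right (by linarith) hb0
  linarith

variable {E : Type*} [Fintype E] [DecidableEq E]

/-- The convex functional `∑_e E P(e ∈ U | Z)^(3/2)`. -/
noncomputable def conc (w : Ω → ℝ) (U : Ω → Finset E) (Z : Ω → γ) : ℝ :=
  ∑ e, ex w (fun ω => ph (cex w Z (fun ω => ind (e ∈ U ω)) (Z ω)))

lemma key_aux (hw : IsPMF w) (U Y : Ω → Finset E) (hYU : ∀ ω, w ω ≠ 0 → Y ω ⊆ U ω)
    (Ξ : Ω → γ) (V : Ω → α)
    (hV : ∀ ω ω', w ω ≠ 0 → w ω' ≠ 0 → V ω' = V ω → U ω' = U ω ∧ Ξ ω' = Ξ ω) (s : Finset E) :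
    3 / 2 * cent w (fun ω => Y ω ∩ s) V ≤ 1 / 2 * cent w (fun ω => Y ω ∩ s) Ξ
      + 5 * ∑ e ∈ s, ex w (fun ω => ind (e ∈ Y ω))
      + 1 / 16 * ∑ e ∈ s, ex w (fun ω => ph (cex w (fun ω => (Ξ ω, Y ω))
          (fun ω => ind (e ∈ U ω)) (Ξ ω, Y ω))) := by
  induction s using Finset.induction_on with
  | empty =>
    have e1 : ∀ {β : Type _} (Z : Ω → β), cent w (fun ω => Y ω ∩ ∅) Z = 0 := by
      intro β Z
      unfold cent
      rw [sub_eq_zero]
      exact ent_congr_det fun _ _ _ _ => by simp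
    have e2 := e1 V
    have e3 : cent w (fun ω => Y ω ∩ ∅) Ξ = 0 := by
      unfold cent
      rw [sub_eq_zero]
      exact ent_congr_det fun _ _ _ _ => by simp
    rw [e2, e3]; simp
  | insert e s hes ih =>
    have hsplit : ∀ ω ω', (Y ω' ∩ insert e s = Y ω ∩ insert e s) ↔
        ((decide (e ∈ Y ω'), Y ω' ∩ s) = (decide (e ∈ Y ω), Y ω ∩ s)) := by
      intro ω ω'
      simp only [Prod.mk.injEq, decide_eq_decide, Finset.ext_iff, Finset.mem_inter,
        Finset.mem_insert]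
      constructor
      · intro h
        refine ⟨by simpa using h e, fun a => ?_⟩
        have := h a
        tauto
      · rintro ⟨h1, h2⟩ a
        have := h2 a
        by_cases ha : a = e
        · subst ha; simpa using h1
        · tauto
    have c1 : cent w (fun ω => Y ω ∩ insert e s) V
        = cent w (fun ω => decide (e ∈ Y ω)) (fun ω => (Y ω ∩ s, V ω))
          + cent w (fun ω => Y ω ∩ s) V := by
      rw [← cent_pair]
      exact cent_congr_det (fun _ _ _ _ => Iff.rfl) fun ω ω' _ _ _ => hsplit ω ω'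
    have c2 : cent w (fun ω => Y ω ∩ insert e s) Ξ
        = cent w (fun ω => decide (e ∈ Y ω)) (fun ω => (Y ω ∩ s, Ξ ω))
          + cent w (fun ω => Y ω ∩ s) Ξ := by
      rw [← cent_pair]
      exact cent_congr_det (fun _ _ _ _ => Iff.rfl) fun ω ω' _ _ _ => hsplit ω ω'
    have h := binary_step hw (fun ω => decide (e ∈ Y ω)) (fun ω => decide (e ∈ U ω))
      (fun ω h0 hb => by simpa using hYU ω h0 (by simpa using hb))
      (fun ω => (Ξ ω, Y ω)) (fun z => (z.2 ∩ s, z.1)) (fun ω => (Y ω ∩ s, V ω))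
      (fun ω ω' h0 h0' h => by
        simp only [Prod.mk.injEq] at h
        obtain ⟨h1, h2⟩ := hV ω ω' h0 h0' h.2
        simp only [h1, h2, h.1, and_self])
    simp only [decide_eq_true_eq] at h
    rw [Finset.sum_insert hes, Finset.sum_insert hes, c1, c2]
    linarith

lemma ex_card (Y : Ω → Finset E) :
    ex w (fun ω => ((Y ω).card : ℝ)) = ∑ e, ex w (fun ω => ind (e ∈ Y ω)) := by
  rw [← ex_sum]; congr 1; funext ω; rw [sum_ind_mem]

/-- The key inequality. -/
lemma key_lemma (hw : IsPMF w) (U Y : Ω → Finset E) (hYU : ∀ ω, w ω ≠ 0 → Y ω ⊆ U ω)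
    (Ξ : Ω → γ) (V : Ω → α)
    (hV : ∀ ω ω', w ω ≠ 0 → w ω' ≠ 0 → V ω' = V ω → U ω' = U ω ∧ Ξ ω' = Ξ ω) :
    3 / 2 * cent w Y V ≤ 1 / 2 * cent w Y Ξ + 5 * ex w (fun ω => ((Y ω).card : ℝ))
      + 1 / 16 * conc w U (fun ω => (Ξ ω, Y ω)) := by
  have := key_aux hw U Y hYU Ξ V hV Finset.univ
  simp only [Finset.inter_univ] at this
  rw [ex_card]
  exact this

end Crest.Agent.R055
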