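import Crest.Agent.Lib.FinEnt.Basic

/-!
The spread lemma: a spread random set is contained in a binomial random set of slightly
larger density.
-/

set_option autoImplicit false
set_option linter.unusedSectionVars false
set_option linter.unnecessarySeqFocus false

namespace Crest.Agent.R055

open Finset Crest.Agent.Lib.FinEnt
open scoped Classical

variable {X : Type} [Fintype X] [DecidableEq X]

/-- Binomial weights on subsets. -/
noncomputable def bw (p : ℝ) (V : Finset X) : ℝ := ∏ x, if x ∈ V then p else 1 - p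

lemma sum_prod_ite (f g : X → ℝ) :
    ∑ V : Finset X, ∏ x, (if x ∈ V then f x else g x) = ∏ x, (f x + g x) := by
  rw [Fintype.prod_add]
  refine Finset.sum_congr rfl fun V _ => ?_
  rw [Finset.prod_ite]
  congr 1
  · congr 1; ext x; simp
  · congr 1; ext x; simp

lemma ind_forall (P : X → Prop) : ind (∀ x, P x) = ∏ x, ind (P x) := by
  by_cases h : ∀ x, P x
  · rw [ind_pos h]; exact (Finset.prod_eq_one fun x _ => ind_pos (h x)).symm
  · rw [ind_neg h]
    push Not at h
    obtain ⟨x, hx⟩ := h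
    exact (Finset.prod_eq_zero (Finset.mem_univ x) (ind_neg hx)).symm

lemma isPMF_bw {p : ℝ} (h0 : 0 ≤ p) (h1 : p ≤ 1) : IsPMF (bw (X := X) p) where
  nonneg V := Finset.prod_nonneg fun x _ => by split_ifs <;> linarith
  sum_one := by
    unfold bw
    rw [sum_prod_ite (fun _ => p) (fun _ => 1 - p)]
    simp

/-- Law of the union with a fixed set. -/
lemma ex_bw_ind_union (p : ℝ) (a y : Finset X) :
    ex (bw p) (fun V => ind (a ∪ V = y))
      = ∏ x, (p * ind (x ∈ y) + (1 - p) * ind (x ∈ a ↔ x ∈ y)) := by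
  rw [← sum_prod_ite]
  unfold ex bw
  refine Finset.sum_congr rfl fun V _ => ?_
  have : ind (a ∪ V = y) = ∏ x, ind (x ∈ a ∪ V ↔ x ∈ y) := by
    rw [← ind_forall]; exact ind_congr Finset.ext_iff
  beta_reduce
  rw [this, ← Finset.prod_mul_distrib]
  refine Finset.prod_congr rfl fun x _ => ?_
  by_cases h : x ∈ V <;> simp [h]

lemma pow_card_eq_prod (p : ℝ) (a : Finset X) : p ^ a.card = ∏ x, if x ∈ a then p else 1 := by
  rw [Finset.prod_ite]; simp

lemma ex_bw_union (p : ℝ) (a : Finset X) (F : Finset X → ℝ) :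
    p ^ a.card * ex (bw p) (fun V => F (a ∪ V)) = ex (bw p) (fun y => ind (a ⊆ y) * F y) := by
  rw [ex_comp (fun V => a ∪ V) F, Finset.mul_sum]
  conv_rhs => unfold ex
  refine Finset.sum_congr rfl fun y _ => ?_
  unfold pr
  rw [ex_bw_ind_union, pow_card_eq_prod, ← mul_assoc, ← mul_assoc]
  congr 1
  have : ind (a ⊆ y) = ∏ x, ind (x ∈ a → x ∈ y) := by
    rw [← ind_forall]; exact ind_congr Finset.subset_iff
  unfold bw
  rw [this, ← Finset.prod_mul_distrib, ← Finset.prod_mul_distrib]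
  refine Finset.prod_congr rfl fun x _ => ?_
  by_cases h : x ∈ a <;> by_cases h' : x ∈ y <;> simp [h, h', ind]

lemma ex_bw_subset {p : ℝ} (h0 : 0 ≤ p) (h1 : p ≤ 1) (a : Finset X) :
    ex (bw p) (fun y => ind (a ⊆ y)) = p ^ a.card := by
  have := ex_bw_union p a (fun _ => 1)
  rw [ex_const (isPMF_bw h0 h1)] at this
  simpa using this.symm

/-- Union of two independent binomial sets. -/
lemma ex_bw_bw (p p' : ℝ) (F : Finset X → ℝ) :
    ex (bw p) (fun V => ex (bw p') (fun V' => F (V ∪ V'))) = ex (bw (1 - (1 - p) * (1 - p'))) F := by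
  simp_rw [fun V => ex_comp (w := bw p') (fun V' => V ∪ V') F]
  rw [ex_sum]
  conv_rhs => unfold ex
  refine Finset.sum_congr rfl fun y _ => ?_
  rw [ex_mul_const]
  congr 1
  unfold pr
  simp_rw [ex_bw_ind_union]
  unfold ex bw
  have := sum_prod_ite (fun x => p * (p' * ind (x ∈ y) + (1 - p') * ind (x ∈ y)))
    (fun x => (1 - p) * (p' * ind (x ∈ y) + (1 - p') * ind (x ∉ y)))
  rw [show (∏ x, if x ∈ y then 1 - (1 - p) * (1 - p') else 1 - (1 - (1 - p) * (1 - p')))
    = ∏ x, (p * (p' * ind (x ∈ y) + (1 - p') * ind (x ∈ y))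
      + (1 - p) * (p' * ind (x ∈ y) + (1 - p') * ind (x ∉ y))) from
    Finset.prod_congr rfl fun x _ => by by_cases h : x ∈ y <;> simp [h, ind] <;> ring, ← this]
  refine Finset.sum_congr rfl fun V _ => ?_
  rw [← Finset.prod_mul_distrib]
  refine Finset.prod_congr rfl fun x _ => ?_
  by_cases h : x ∈ V <;> simp [h]

/-- Decreasing functions have decreasing expectation. -/
lemma ex_bw_anti {p p' : ℝ} (h0 : 0 ≤ p) (h : p ≤ p') (h1 : p' ≤ 1) (F : Finset X → ℝ)
    (hF : ∀ V V', V ⊆ V' → F V' ≤ F V) : ex (bw p') F ≤ ex (bw p) F := by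
  by_cases hp : p = 1
  · have : p' = p := by linarith
    rw [this]
  have hp1 : 0 < 1 - p := by
    have : p < 1 := lt_of_le_of_ne (h.trans h1) hp
    linarith
  have e : p' = 1 - (1 - p) * (1 - (p' - p) / (1 - p)) := by field_simp; ring
  rw [e, ← ex_bw_bw]
  refine ex_mono (isPMF_bw h0 (h.trans h1)) fun V _ => ?_
  refine ex_le_const (isPMF_bw (div_nonneg (by linarith) hp1.le) ?_) fun V' _ =>
    hF _ _ Finset.subset_union_left
  rw [div_le_one hp1]; linarith

variable {Ω : Type} [Fintype Ω]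

/-- Normalising sum of the posterior law. -/
noncomputable def Zf (ν : Ω → ℝ) (A : Ω → Finset X) (ρ : ℝ) (y : Finset X) : ℝ :=
  ex ν (fun ω => ind (A ω ⊆ y) / ρ ^ (A ω).card)

/-- Joint weight of a set and a posterior resample, given the random set `V`. -/
noncomputable def post (ν : Ω → ℝ) (A : Ω → Finset X) (ρ : ℝ) (V : Finset X) :
    Ω × Ω → ℝ := fun p =>
  ν p.1 * (ν p.2 * (ind (A p.2 ⊆ A p.1 ∪ V) / ρ ^ (A p.2).card) / Zf ν A ρ (A p.1 ∪ V))

variable {ν : Ω → ℝ} {A : Ω → Finset X} {ρ : ℝ}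

lemma Zf_nonneg (hν : IsPMF ν) (hρ : 0 < ρ) (y : Finset X) : 0 ≤ Zf ν A ρ y :=
  ex_nonneg hν fun _ _ => div_nonneg (ind_nonneg _) (pow_pos hρ _).le

lemma Zf_pos (hν : IsPMF ν) (hρ : 0 < ρ) {ω : Ω} (h : ν ω ≠ 0) {y : Finset X} (hy : A ω ⊆ y) :
    0 < Zf ν A ρ y := by
  have := le_ex_single hν (f := fun ω => ind (A ω ⊆ y) / ρ ^ (A ω).card)
    (fun _ => div_nonneg (ind_nonneg _) (pow_pos hρ _).le) ω
  rw [ind_pos hy] at this
  refine lt_of_lt_of_le ?_ this
  have := lt_of_le_of_ne (hν.nonneg ω) (Ne.symm h)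
  positivity

lemma ex_post (V : Finset X) (F : Ω × Ω → ℝ) :
    ex (post ν A ρ V) F = ex ν (fun ω => ex ν (fun ω' =>
      ind (A ω' ⊆ A ω ∪ V) / ρ ^ (A ω').card * F (ω, ω')) / Zf ν A ρ (A ω ∪ V)) := by
  unfold post
  conv_lhs => unfold ex
  rw [Fintype.sum_prod_type]
  refine Finset.sum_congr rfl fun ω _ => ?_
  beta_reduce
  unfold ex
  rw [Finset.sum_div, Finset.mul_sum]
  exact Finset.sum_congr rfl fun ω' _ => by ring

lemma mp_post (hν : IsPMF ν) (hρ : 0 < ρ) (V : Finset X) : MP (post ν A ρ V) ν Prod.fst := by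
  intro F
  rw [ex_post]
  refine ex_congr fun ω h => ?_
  simp only
  rw [ex_mul_const]
  have := Zf_pos (A := A) hν hρ h (Finset.subset_union_left (s₂ := V))
  change Zf ν A ρ (A ω ∪ V) * F ω / _ = _
  field_simp

lemma isPMF_post (hν : IsPMF ν) (hρ : 0 < ρ) (V : Finset X) : IsPMF (post ν A ρ V) where
  nonneg p := mul_nonneg (hν.nonneg _) (div_nonneg (mul_nonneg (hν.nonneg _)
    (div_nonneg (ind_nonneg _) (pow_pos hρ _).le)) (Zf_nonneg hν hρ _))
  sum_one := by
    have := mp_post (A := A) hν hρ V (fun _ => 1)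
    rw [ex_const hν] at this
    simpa [ex] using this

lemma post_supp {V : Finset X} {p : Ω × Ω} (h : post ν A ρ V p ≠ 0) :
    ν p.1 ≠ 0 ∧ ν p.2 ≠ 0 ∧ A p.2 ⊆ A p.1 ∪ V := by
  unfold post at h
  refine ⟨fun h1 => h (by simp [h1]), fun h1 => h (by simp [h1]), ?_⟩
  by_contra h1
  exact h (by simp [ind_neg h1])

lemma ex_pow_inter (hν : IsPMF ν) {q : ℝ} (hq : 0 < q)
    (hA : ∀ S : Finset X, ex ν (fun ω => ind (S ⊆ A ω)) ≤ q ^ S.card) (a : Finset X) :
    ex ν (fun ω => (1 / q + 1) ^ (a ∩ A ω).card) ≤ 2 ^ a.card := by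
  have e1 : ∀ ω, (1 / q + 1) ^ (a ∩ A ω).card
      = ∑ S ∈ a.powerset, (1 / q) ^ S.card * ind (S ⊆ A ω) := by
    intro ω
    rw [← Finset.prod_const, Finset.prod_add_one]
    have : (a ∩ A ω).powerset = a.powerset.filter (fun S => S ⊆ A ω) := by
      ext S; simp only [Finset.mem_powerset, Finset.mem_filter, Finset.subset_inter_iff]
    rw [this, Finset.sum_filter]
    refine Finset.sum_congr rfl fun S _ => ?_
    by_cases h : S ⊆ A ω
    · simp [h, ind]
    · simp [h, ind]
  simp_rw [e1]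
  rw [ex_sum]
  calc _ ≤ ∑ S ∈ a.powerset, (1 : ℝ) := Finset.sum_le_sum fun S _ => by
        rw [ex_const_mul]
        calc _ ≤ (1 / q) ^ S.card * q ^ S.card :=
              mul_le_mul_of_nonneg_left (hA S) (by positivity)
          _ = 1 := by rw [← mul_pow]; field_simp; simp
    _ = _ := by simp

/-- One round halves the expected size. -/
lemma round_half (hν : IsPMF ν) {q : ℝ} (hq : 0 < q) (hq1 : 4 * q ≤ 1)
    (hA : ∀ S : Finset X, ex ν (fun ω => ind (S ⊆ A ω)) ≤ q ^ S.card) :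
    ex (bw (4 * q)) (fun V => ex (post ν A (4 * q) V) (fun p => ((A p.1 ∩ A p.2).card : ℝ)))
      ≤ 1 / 2 * ex ν (fun ω => ((A ω).card : ℝ)) := by
  set ρ := 4 * q with hρdef
  have hρ : 0 < ρ := by positivity
  have hb := isPMF_bw (X := X) hρ.le hq1
  set φ : Ω → Ω → ℝ := fun ω ω' => (1 / q + 1) ^ (A ω ∩ A ω').card / 2 ^ (A ω).card with hφ
  -- first exponential moment
  have m1 : ex (bw ρ) (fun V => ex (post ν A ρ V) (fun p =>
      φ p.1 p.2 * ρ ^ (A p.1 ∩ A p.2).card * Zf ν A ρ (A p.1 ∪ V))) ≤ 1 := by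
    have e1 : ∀ V, ex (post ν A ρ V) (fun p =>
        φ p.1 p.2 * ρ ^ (A p.1 ∩ A p.2).card * Zf ν A ρ (A p.1 ∪ V))
        = ex ν (fun ω => ex ν (fun ω' => φ ω ω' * ρ ^ (A ω ∩ A ω').card / ρ ^ (A ω').card
          * ind (A ω' ⊆ A ω ∪ V))) := by
      intro V
      rw [ex_post]
      refine ex_congr fun ω h => ?_
      have := Zf_pos (A := A) hν hρ h (Finset.subset_union_left (s₂ := V))
      rw [div_eq_iff this.ne', ← ex_mul_const]
      congr 1; funext ω'; ring
    simp_rw [e1]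
    rw [ex_comm]
    refine ex_le_const hν fun ω _ => ?_
    rw [ex_comm]
    have e2 : ∀ ω', ex (bw ρ) (fun V => φ ω ω' * ρ ^ (A ω ∩ A ω').card / ρ ^ (A ω').card
          * ind (A ω' ⊆ A ω ∪ V)) = φ ω ω' := by
      intro ω'
      rw [ex_const_mul]
      have e3 : ex (bw ρ) (fun V => ind (A ω' ⊆ A ω ∪ V)) = ρ ^ (A ω' \ A ω).card := by
        rw [← ex_bw_subset hρ.le hq1]
        congr 1; funext V
        exact ind_congr (sdiff_le_iff (a := A ω') (b := A ω) (c := V)).symm
      have e4 : (A ω').card = (A ω ∩ A ω').card + (A ω' \ A ω).card := by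
        rw [Finset.inter_comm, Finset.card_inter_add_card_sdiff]
      rw [e3, e4, pow_add]
      field_simp
    simp_rw [e2]
    simp only [hφ, div_eq_mul_inv _ ((2 : ℝ) ^ (A ω).card)]
    rw [ex_mul_const, ← div_eq_mul_inv, div_le_one (by positivity)]
    exact ex_pow_inter hν hq hA (A ω)
  -- second exponential moment
  have m2 : ex (bw ρ) (fun V => ex (post ν A ρ V) (fun p => 1 / Zf ν A ρ (A p.1 ∪ V))) ≤ 1 := by
    have e1 : ∀ V, ex (post ν A ρ V) (fun p => 1 / Zf ν A ρ (A p.1 ∪ V))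
        = ex ν (fun ω => 1 / Zf ν A ρ (A ω ∪ V)) :=
      fun V => mp_post hν hρ V (fun ω => 1 / Zf ν A ρ (A ω ∪ V))
    simp_rw [e1]
    rw [ex_comm]
    have e2 : ∀ ω, ex (bw ρ) (fun V => 1 / Zf ν A ρ (A ω ∪ V))
        = ex (bw ρ) (fun y => ind (A ω ⊆ y) / ρ ^ (A ω).card * (1 / Zf ν A ρ y)) := by
      intro ω
      have := ex_bw_union ρ (A ω) (fun y => 1 / Zf ν A ρ y)
      have h2 : (0 : ℝ) < ρ ^ (A ω).card := pow_pos hρ _
      rw [← mul_div_cancel_left₀ (ex (bw ρ) (fun V => 1 / Zf ν A ρ (A ω ∪ V))) h2.ne', this,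
        div_eq_mul_inv, ← ex_mul_const]
      congr 1; funext y; ring
    simp_rw [e2]
    rw [ex_comm]
    refine ex_le_const hb fun y _ => ?_
    rw [ex_mul_const]
    change Zf ν A ρ y * _ ≤ _
    rw [mul_one_div]
    exact div_self_le_one _
  -- pointwise logarithmic inequality
  have hl : 0 < Real.log 2 := Real.log_pos (by norm_num)
  have key : ∀ V p, post ν A ρ V p ≠ 0 →
      2 * Real.log 2 * ((A p.1 ∩ A p.2).card : ℝ) ≤ Real.log 2 * ((A p.1).card : ℝ)
        + (φ p.1 p.2 * ρ ^ (A p.1 ∩ A p.2).card * Zf ν A ρ (A p.1 ∪ V)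
          + 1 / Zf ν A ρ (A p.1 ∪ V) - 2) := by
    intro V p h
    have hZ := Zf_pos (A := A) hν hρ (post_supp h).1 (Finset.subset_union_left (s₂ := V))
    have hφ0 : 0 < φ p.1 p.2 := by simp only [hφ]; positivity
    have h1 := Real.log_le_sub_one_of_pos (show 0 < φ p.1 p.2 * ρ ^ (A p.1 ∩ A p.2).card
      * Zf ν A ρ (A p.1 ∪ V) by positivity)
    have h2 := Real.log_le_sub_one_of_pos (show 0 < 1 / Zf ν A ρ (A p.1 ∪ V) by positivity)
    rw [Real.log_mul (by positivity) hZ.ne', Real.log_mul hφ0.ne' (by positivity),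
      Real.log_pow] at h1
    rw [Real.log_div (by norm_num) hZ.ne', Real.log_one] at h2
    have h3 : Real.log (φ p.1 p.2) = (A p.1 ∩ A p.2).card * Real.log (1 / q + 1)
        - (A p.1).card * Real.log 2 := by
      simp only [hφ]
      rw [Real.log_div (by positivity) (by positivity), Real.log_pow, Real.log_pow]
    have h4 : 2 * Real.log 2 ≤ Real.log (1 / q + 1) + Real.log ρ := by
      rw [← Real.log_mul (by positivity) hρ.ne']
      have : 2 * Real.log 2 = Real.log 4 := by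
        rw [show (4 : ℝ) = 2 ^ 2 by norm_num, Real.log_pow]; norm_num
      rw [this]
      apply Real.log_le_log (by norm_num)
      rw [hρdef]; field_simp; linarith
    have h5 := mul_le_mul_of_nonneg_left h4 (Nat.cast_nonneg (α := ℝ) (A p.1 ∩ A p.2).card)
    linarith
  have h1 : ex (bw ρ) (fun V => ex (post ν A ρ V)
      (fun p => 2 * Real.log 2 * ((A p.1 ∩ A p.2).card : ℝ))) ≤ _ :=
    ex_mono hb fun V _ => ex_mono (isPMF_post hν hρ V) (key V)
  have e5 : ∀ V, ex (post ν A ρ V) (fun p => ((A p.1).card : ℝ))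
      = ex ν (fun ω => ((A ω).card : ℝ)) := fun V => mp_post hν hρ V (fun ω => ((A ω).card : ℝ))
  simp_rw [ex_add, ex_sub, ex_add, ex_const_mul, e5, fun V => ex_const (isPMF_post (A := A) hν hρ V),
    ex_const hb] at h1
  have : Real.log 2 * ex (bw ρ) (fun V => ex (post ν A ρ V)
    (fun p => ((A p.1 ∩ A p.2).card : ℝ))) ≤ Real.log 2 * (1 / 2 * ex ν (fun ω => ((A ω).card : ℝ))) := by
    linarith
  exact le_of_mul_le_mul_left this hl

/-- The spread lemma. -/
theorem spread_rounds {q : ℝ} (hq : 0 < q) (hq1 : 4 * q ≤ 1) (r : ℕ) :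
    ∀ (Ω : Type) [Fintype Ω] (ν : Ω → ℝ) (A : Ω → Finset X), IsPMF ν →
      (∀ S : Finset X, ex ν (fun ω => ind (S ⊆ A ω)) ≤ q ^ S.card) →
      ex (bw (1 - (1 - 4 * q) ^ r)) (fun V => ind (∀ ω, ν ω ≠ 0 → ¬ A ω ⊆ V))
        ≤ (1 / 2) ^ r * ex ν (fun ω => ((A ω).card : ℝ)) := by
  have hρ : 0 < 4 * q := by positivity
  have hp : ∀ r : ℕ, IsPMF (bw (X := X) (1 - (1 - 4 * q) ^ r)) := fun r =>
    isPMF_bw (sub_nonneg.2 (pow_le_one₀ (by linarith) (by linarith)))
      (by have := pow_nonneg (show 0 ≤ 1 - 4 * q by linarith) r; linarith)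
  induction r with
  | zero =>
    intro Ω _ ν A hν _
    rw [pow_zero (1 / 2 : ℝ), one_mul]
    refine ex_le_const (hp 0) fun V _ => ?_
    by_cases h : ∀ ω, ν ω ≠ 0 → ¬ A ω ⊆ V
    · rw [ind_pos h, ← ex_const hν 1]
      refine ex_mono hν fun ω h0 => ?_
      have : (A ω).Nonempty := by
        rw [Finset.nonempty_iff_ne_empty]
        intro h1; exact h ω h0 (by rw [h1]; exact Finset.empty_subset _)
      exact_mod_cast this.card_pos
    · rw [ind_neg h]; exact ex_nonneg hν fun _ _ => by positivity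
  | succ r ih =>
    intro Ω _ ν A hν hA
    have e : 1 - (1 - 4 * q) ^ (r + 1) = 1 - (1 - 4 * q) * (1 - (1 - (1 - 4 * q) ^ r)) := by ring
    rw [e, ← ex_bw_bw]
    have hb := isPMF_bw (X := X) hρ.le hq1
    calc _ ≤ ex (bw (4 * q)) (fun V => (1 / 2) ^ r *
            ex (post ν A (4 * q) V) (fun p => ((A p.1 ∩ A p.2).card : ℝ))) := by
          refine ex_mono hb fun V _ => ?_
          have hpost := isPMF_post (A := A) hν hρ V
          have hsub : ∀ p, post ν A (4 * q) V p ≠ 0 → A p.2 \ V ⊆ A p.1 ∩ A p.2 := by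
            intro p h x hx
            have h1 := (post_supp h).2.2
            rw [Finset.mem_sdiff] at hx
            have h2 := Finset.mem_union.1 (h1 hx.1)
            exact Finset.mem_inter.2 ⟨h2.resolve_right hx.2, hx.1⟩
          have h1 := ih (Ω × Ω) (post ν A (4 * q) V) (fun p => A p.2 \ V) hpost (fun S => by
            refine le_trans ?_ (hA S)
            rw [← mp_post (A := A) hν hρ V (fun ω => ind (S ⊆ A ω))]
            exact ex_mono hpost fun p h => ind_mono fun h1 =>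
              h1.trans ((hsub p h).trans Finset.inter_subset_left))
          refine le_trans ?_ (h1.trans (mul_le_mul_of_nonneg_left
            (ex_mono hpost fun p h => ?_) (by positivity)))
          · refine ex_mono (hp r) fun V' _ => ind_mono fun h p h0 h2 => ?_
            exact h p.2 (post_supp h0).2.1 ((sdiff_le_iff (a := A p.2) (b := V) (c := V')).1 h2)
          · exact_mod_cast Finset.card_le_card (hsub p h)
      _ ≤ _ := by
          rw [ex_const_mul, pow_succ, mul_assoc]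
          exact mul_le_mul_of_nonneg_left (round_half hν hq hq1 hA) (by positivity)

end Crest.Agent.R055
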