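import Crest.Agent.R055.Group
import Crest.Agent.R055.Spread
import Crest.Prelude.Def_RandomGraph

/-!
The abstract threshold theorem and its transfer to the binomial random graph.
-/

set_option autoImplicit false
set_option linter.unusedSectionVars false

namespace Crest.Agent.R055

open Finset Crest.Agent.Lib.FinEnt Crest.CombinatoricsR.RandomGraph
open scoped Classical Pointwise

theorem abstract_main {G : Type} [Group G] [Fintype G] {X : Type} [Fintype X] [DecidableEq X]
    [MulAction G X] {H : Finset X} (hne : H.Nonempty) {h : ℕ} (hh : H.card ≤ h) {p : ℝ}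
    (hp0 : 0 ≤ p) (hs : ∀ S ⊆ H, 1 / 2 ≤ orb G S * p ^ S.card) :
    ex (bw (min 1 (2048 * Real.exp 50 * p * (1 + Real.logb 2 (h : ℝ)))))
      (fun V => ind (∀ g : G, ¬ g • H ⊆ V)) ≤ 1 / 2 := by
  have hc := hne.card_pos
  have hp : 0 < p := by
    refine lt_of_le_of_ne hp0 ?_
    rintro rfl
    have := hs H subset_rfl
    rw [zero_pow hc.ne', mul_zero] at this
    norm_num at this
  have hh1 : (1 : ℝ) ≤ h := by exact_mod_cast hc.trans_le hh
  have hlog : 0 ≤ Real.logb 2 (h : ℝ) := Real.logb_nonneg (by norm_num) hh1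
  rcases le_total 1 (2048 * Real.exp 50 * p * (1 + Real.logb 2 (h : ℝ))) with h1 | h1
  · rw [min_eq_left h1]
    have hb := isPMF_bw (X := X) (p := 1) zero_le_one le_rfl
    have h2 := ex_bw_subset (X := X) (p := 1) zero_le_one le_rfl Finset.univ
    have h3 : ex (bw (1 : ℝ)) (fun V : Finset X => ind (∀ g : G, ¬ g • H ⊆ V))
        ≤ ex (bw (1 : ℝ)) (fun V : Finset X => 1 - ind (Finset.univ ⊆ V)) := by
      refine ex_mono hb fun V _ => ?_
      by_cases h4 : Finset.univ ⊆ V
      · rw [ind_pos h4, ind_neg (fun h5 => h5 1 ((Finset.subset_univ _).trans h4))]; norm_num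
      · rw [ind_neg h4, sub_zero]; exact ind_le_one _
    rw [ex_sub, ex_const hb, h2] at h3
    norm_num at h3 ⊢
    linarith
  rw [min_eq_right h1]
  set q := Real.exp 34 * p with hq
  have hq0 : 0 < q := by positivity
  have he : q ≤ Real.exp 50 * p :=
    mul_le_mul_of_nonneg_right (Real.exp_le_exp.2 (by norm_num)) hp0
  set r := ⌈Real.logb 2 (h : ℝ)⌉₊ + 1 with hr
  have hr1 : (r : ℝ) ≤ 2 * (1 + Real.logb 2 (h : ℝ)) := by
    have := Nat.ceil_lt_add_one hlog
    rw [hr]; push_cast; linarith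
  have hr0 : (1 : ℝ) ≤ r := by rw [hr]; push_cast; have := Nat.cast_nonneg (α := ℝ) ⌈Real.logb 2 (h : ℝ)⌉₊; linarith
  have h2 : r * (4 * q) ≤ 2048 * Real.exp 50 * p * (1 + Real.logb 2 (h : ℝ)) := by
    have : r * (4 * q) ≤ 2 * (1 + Real.logb 2 (h : ℝ)) * (4 * (Real.exp 50 * p)) :=
      mul_le_mul hr1 (by linarith) (by positivity) (by positivity)
    have h3 : 0 ≤ Real.exp 50 * p * (1 + Real.logb 2 (h : ℝ)) := by positivity
    nlinarith
  have hq1 : 4 * q ≤ 1 := by nlinarith
  have h3 := spread_rounds hq0 hq1 r G (unif G) (fun g => g • H) isPMF_unif (fun S => by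
    refine le_trans (le_of_eq ?_) (rho_le hp hs S)
    unfold rho
    rw [← ex_unif_equiv (Equiv.inv G)]
    congr 1; funext g
    exact ind_congr (by rw [Finset.smul_finset_subset_iff]; rfl))
  have h4 : 1 - (1 - 4 * q) ^ r ≤ r * (4 * q) := by
    have := one_add_mul_le_pow (show (-2 : ℝ) ≤ - (4 * q) by linarith) r
    rw [← sub_eq_add_neg] at this
    linarith
  have h5 := ex_bw_anti (X := X) (sub_nonneg.2 (pow_le_one₀ (by linarith) (by linarith)))
    (h4.trans h2) h1 (fun V => ind (∀ g : G, ¬ g • H ⊆ V))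
    (fun V V' hV => ind_mono fun h g h' => h g (h'.trans hV))
  refine h5.trans (le_trans ?_ (h3.trans ?_))
  · refine ex_mono (isPMF_bw (sub_nonneg.2 (pow_le_one₀ (by linarith) (by linarith)))
      (h4.trans (h2.trans h1))) fun V _ => ind_mono fun h g _ => h g
  · simp only [Finset.card_smul_finset]
    rw [ex_const isPMF_unif, hr, pow_succ]
    have h6 : (h : ℝ) ≤ 2 ^ ⌈Real.logb 2 (h : ℝ)⌉₊ := by
      rw [← Real.rpow_natCast, ← Real.logb_le_iff_le_rpow (by norm_num) (by linarith)]
      exact Nat.le_ceil _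
    have h7 : (H.card : ℝ) ≤ h := by exact_mod_cast hh
    have h8 : (1 / 2 : ℝ) ^ ⌈Real.logb 2 (h : ℝ)⌉₊ * 2 ^ ⌈Real.logb 2 (h : ℝ)⌉₊ = 1 := by
      rw [← mul_pow]; norm_num
    have h9 : (0 : ℝ) ≤ (1 / 2 : ℝ) ^ ⌈Real.logb 2 (h : ℝ)⌉₊ := by positivity
    nlinarith

/-- Permutations of the vertices act on the edge positions. -/
instance edgeAction (n : ℕ) : MulAction (Equiv.Perm (Fin n)) (EdgeSlot n) where
  smul σ z := ⟨z.1.map σ, fun h => z.2 ((Sym2.isDiag_map σ.injective).1 h)⟩
  one_smul z := Subtype.ext (by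
    change z.1.map (1 : Equiv.Perm (Fin n)) = z.1
    simp)
  mul_smul σ τ z := Subtype.ext (by
    change z.1.map (σ * τ : Equiv.Perm (Fin n)) = (z.1.map τ).map σ
    rw [Sym2.map_map]; rfl)

lemma smul_val {n : ℕ} (σ : Equiv.Perm (Fin n)) (z : EdgeSlot n) : (σ • z).1 = z.1.map σ := rfl

/-- The set of positions showing `true`. -/
def onSet {X : Type} [Fintype X] (ω : X → Bool) : Finset X := Finset.univ.filter (ω · = true)

lemma sum_bernoulli {X : Type} [Fintype X] [DecidableEq X] (p : ℝ) (F : Finset X → ℝ) :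
    ∑ ω : X → Bool, Crest.FinProb.bernoulliWeight p ω * F (onSet ω) = ex (bw p) F := by
  unfold ex
  refine Fintype.sum_bijective onSet ⟨fun ω ω' h => ?_, fun V => ⟨fun x => decide (x ∈ V), ?_⟩⟩
    _ _ fun ω => ?_
  · funext x
    have := Finset.ext_iff.1 h x
    simp only [onSet, Finset.mem_filter, Finset.mem_univ, true_and] at this
    exact Bool.eq_iff_iff.2 this
  · ext x; simp [onSet]
  · congr 1
    unfold Crest.FinProb.bernoulliWeight bw
    refine Finset.prod_congr rfl fun x _ => ?_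
    simp [onSet]

lemma graphOf_adj {n : ℕ} (ω : EdgeSlot n → Bool) (z : EdgeSlot n) :
    z.1 ∈ (graphOf ω).edgeSet ↔ z ∈ onSet ω := by
  unfold graphOf onSet
  rw [SimpleGraph.edgeSet_fromEdgeSet]
  simp only [Set.mem_diff, Set.mem_setOf_eq, Finset.mem_filter, Finset.mem_univ, true_and,
    Sym2.mem_diagSet]
  exact ⟨fun h => h.1.2, fun h => ⟨⟨z.2, h⟩, z.2⟩⟩

variable {n : ℕ} {W : Type} (H : SimpleGraph W) (ι : W ↪ Fin n)

/-- The edge positions of the copy of `H` placed by `ι`. -/
noncomputable def placed : Finset (EdgeSlot n) :=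
  Finset.univ.filter fun z => ∃ e ∈ H.edgeSet, z.1 = e.map ι

/-- The edge position of an edge. -/
def slot {u v : W} (h : u ≠ v) : EdgeSlot n :=
  ⟨s(ι u, ι v), by simpa using h⟩

lemma slot_mem {u v : W} (h : H.Adj u v) : slot ι h.ne ∈ placed H ι := by
  simp only [placed, Finset.mem_filter, Finset.mem_univ, true_and]
  exact ⟨s(u, v), h, rfl⟩

lemma card_placed [Fintype H.edgeSet] : (placed H ι).card ≤ H.edgeFinset.card := by
  have h1 : (placed H ι).card = ((placed H ι).image Subtype.val).card :=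
    (Finset.card_image_of_injective _ Subtype.val_injective).symm
  rw [h1]
  refine le_trans (Finset.card_le_card ?_) (Finset.card_image_le (f := Sym2.map ι))
  intro z hz
  obtain ⟨z', hz', rfl⟩ := Finset.mem_image.1 hz
  simp only [placed, Finset.mem_filter, Finset.mem_univ, true_and] at hz'
  obtain ⟨e, he, h⟩ := hz'
  exact Finset.mem_image.2 ⟨e, by simpa using he, h.symm⟩

lemma isContained_of (ω : EdgeSlot n → Bool) (σ : Equiv.Perm (Fin n))
    (h : σ • placed H ι ⊆ onSet ω) : H.IsContained (graphOf ω) := by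
  refine ⟨⟨⟨fun v => σ (ι v), fun {u v} huv => ?_⟩, σ.injective.comp ι.injective⟩⟩
  have h1 := h (Finset.smul_mem_smul_finset (slot_mem H ι huv))
  rw [← graphOf_adj] at h1
  exact h1

/-- The subgraph of `H` with the prescribed edge positions and no isolated vertex. -/
def subOf (S : Finset (EdgeSlot n)) : H.Subgraph where
  verts := {u | ∃ v, ∃ h : H.Adj u v, slot ι h.ne ∈ S}
  Adj u v := ∃ h : H.Adj u v, slot ι h.ne ∈ S
  adj_sub h := h.1
  edge_vert h := ⟨_, h⟩
  symm := ⟨fun u v h => by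
    obtain ⟨h1, h2⟩ := h
    refine ⟨h1.symm, ?_⟩
    have : slot ι h1.symm.ne = slot ι h1.ne := Subtype.ext Sym2.eq_swap
    rwa [this]⟩

lemma copyCount_le [Finite W] (S : Finset (EdgeSlot n)) (hS : S ⊆ placed H ι)
    (ω : EdgeSlot n → Bool) :
    (((graphOf ω).copyCount (subOf H ι S).coe : ℕ) : ℝ)
      ≤ ∑ T ∈ Finset.univ.image (fun σ : Equiv.Perm (Fin n) => σ • S), ind (T ⊆ onSet ω) := by
  have e : ∑ T ∈ Finset.univ.image (fun σ : Equiv.Perm (Fin n) => σ • S), ind (T ⊆ onSet ω)
      = (((Finset.univ.image (fun σ : Equiv.Perm (Fin n) => σ • S)).filter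
        (fun T => T ⊆ onSet ω)).card : ℝ) := by
    rw [Finset.card_filter]; push_cast
    refine Finset.sum_congr rfl fun T _ => ?_
    by_cases h : T ⊆ onSet ω
    · rw [ind_pos h, if_pos h]
    · rw [ind_neg h, if_neg h]
  rw [e]
  unfold SimpleGraph.copyCount
  refine Nat.cast_le.2 (Finset.card_le_card_of_injOn
    (fun G' => Finset.univ.filter fun z : EdgeSlot n => z.1 ∈ G'.edgeSet) ?_ ?_)
  · intro G' hG'
    obtain ⟨φ⟩ : Nonempty ((subOf H ι S).coe ≃g G'.coe) := by simpa using hG'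
    simp only [Finset.coe_filter, Finset.mem_image, Finset.mem_univ, true_and, Set.mem_setOf_eq]
    refine ⟨?_, fun z hz => ?_⟩
    · obtain ⟨σ, hσ⟩ := Equiv.Perm.exists_extending_pair
        (fun v : (subOf H ι S).verts => ι v.1) (fun v => (φ v).1)
        (ι.injective.comp Subtype.val_injective) (Subtype.val_injective.comp φ.injective)
      refine ⟨σ, ?_⟩
      ext z
      simp only [Finset.mem_filter, Finset.mem_univ, true_and]
      constructor
      · intro hz
        obtain ⟨z', hz', rfl⟩ := Finset.mem_smul_finset.1 hz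
        have h1 := hS hz'
        simp only [placed, Finset.mem_filter, Finset.mem_univ, true_and] at h1
        obtain ⟨e, he, h1⟩ := h1
        induction e using Sym2.ind with
        | h u v =>
          have huv : H.Adj u v := he
          have h2 : z' = slot ι huv.ne := Subtype.ext h1
          have h3 : (subOf H ι S).Adj u v := ⟨huv, h2 ▸ hz'⟩
          have h4 : (subOf H ι S).coe.Adj ⟨u, h3.fst_mem⟩ ⟨v, h3.snd_mem⟩ := h3
          have h5 := φ.map_adj_iff.2 h4
          rw [smul_val, h1, Sym2.map_mk, Sym2.map_mk, hσ ⟨u, h3.fst_mem⟩, hσ ⟨v, h3.snd_mem⟩]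
          exact h5
      · intro hz
        obtain ⟨z, hz0⟩ := z
        induction z using Sym2.ind with
        | h a b =>
          have hab : G'.Adj a b := hz
          have h4 : G'.coe.Adj ⟨a, hab.fst_mem⟩ ⟨b, hab.snd_mem⟩ := hab
          have h5 := φ.symm.map_adj_iff.2 h4
          obtain ⟨h6, h7⟩ : (subOf H ι S).Adj _ _ := h5
          refine Finset.mem_smul_finset.2 ⟨_, h7, Subtype.ext ?_⟩
          rw [smul_val]
          simp only [slot, Sym2.map_mk]
          rw [hσ, hσ]
          simp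
    · rw [← graphOf_adj]
      simp only [Finset.mem_filter, Finset.mem_univ, true_and] at hz
      exact G'.edgeSet_subset hz
  · have key : ∀ G' G'' : (graphOf ω).Subgraph,
        (Finset.univ.filter fun z : EdgeSlot n => z.1 ∈ G'.edgeSet)
          = (Finset.univ.filter fun z : EdgeSlot n => z.1 ∈ G''.edgeSet) →
        ∀ a b, G'.Adj a b → G''.Adj a b := by
      intro G' G'' h a b hab
      have := Finset.ext_iff.1 h ⟨s(a, b), by simpa using hab.ne⟩
      simp only [Finset.mem_filter, Finset.mem_univ, true_and] at this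
      exact this.1 hab
    have key2 : ∀ G' G'' : (graphOf ω).Subgraph, Nonempty ((subOf H ι S).coe ≃g G'.coe) →
        (∀ a b, G'.Adj a b → G''.Adj a b) → G'.verts ⊆ G''.verts := by
      rintro G' G'' ⟨φ⟩ h a ha
      obtain ⟨v, hv⟩ := (φ.symm ⟨a, ha⟩).2
      have h3 : (subOf H ι S).Adj (φ.symm ⟨a, ha⟩).1 v := hv
      have h4 : (subOf H ι S).coe.Adj (φ.symm ⟨a, ha⟩) ⟨v, h3.snd_mem⟩ := h3
      have h5 := φ.map_adj_iff.2 h4
      rw [RelIso.apply_symm_apply] at h5
      exact (h _ _ h5).fst_mem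
    intro G' hG' G'' hG'' h
    have n1 : Nonempty ((subOf H ι S).coe ≃g G'.coe) := by simpa using hG'
    have n2 : Nonempty ((subOf H ι S).coe ≃g G''.coe) := by simpa using hG''
    refine SimpleGraph.Subgraph.ext (Set.Subset.antisymm (key2 _ _ n1 (key _ _ h))
      (key2 _ _ n2 (key _ _ h.symm))) ?_
    funext a b
    exact propext ⟨key _ _ h a b, key _ _ h.symm a b⟩

lemma expect_le [Finite W] {p : ℝ} (hp0 : 0 ≤ p) (hp1 : p ≤ 1) (S : Finset (EdgeSlot n))
    (hS : S ⊆ placed H ι) :
    gnpExpect n p (fun G => (G.copyCount (subOf H ι S).coe : ℝ))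
      ≤ orb (Equiv.Perm (Fin n)) S * p ^ S.card := by
  unfold gnpExpect
  calc _ ≤ ∑ ω : EdgeSlot n → Bool, Crest.FinProb.bernoulliWeight p ω *
        ∑ T ∈ Finset.univ.image (fun σ : Equiv.Perm (Fin n) => σ • S), ind (T ⊆ onSet ω) := by
        refine Finset.sum_le_sum fun ω _ => mul_le_mul_of_nonneg_left (copyCount_le H ι S hS ω) ?_
        exact Finset.prod_nonneg fun x _ => by split_ifs <;> linarith
    _ = _ := by
        rw [sum_bernoulli p (fun V =>
          ∑ T ∈ Finset.univ.image (fun σ : Equiv.Perm (Fin n) => σ • S), ind (T ⊆ V)), ex_sum,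
          Finset.sum_congr rfl (g := fun _ => p ^ S.card) fun T hT => by
            obtain ⟨g, -, rfl⟩ := Finset.mem_image.1 hT
            rw [ex_bw_subset hp0 hp1, Finset.card_smul_finset]]
        simp [orb]

lemma prob_ge {p : ℝ} (hp0 : 0 ≤ p) (hp1 : p ≤ 1) :
    1 - ex (bw p) (fun V => ind (∀ σ : Equiv.Perm (Fin n), ¬ σ • placed H ι ⊆ V))
      ≤ gnpProb n p {G | H.IsContained G} := by
  rw [← ex_const (isPMF_bw (X := EdgeSlot n) hp0 hp1) 1, ← ex_sub, ← sum_bernoulli]
  unfold gnpProb Crest.FinProb.bernoulliProb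
  rw [Finset.sum_filter]
  refine Finset.sum_le_sum fun ω _ => ?_
  have h0 : 0 ≤ Crest.FinProb.bernoulliWeight p ω :=
    Finset.prod_nonneg fun x _ => by split_ifs <;> linarith
  split_ifs with h
  · have := ind_nonneg (∀ σ : Equiv.Perm (Fin n), ¬ σ • placed H ι ⊆ onSet ω)
    nlinarith
  · rw [ind_pos fun σ hσ => h (isContained_of H ι ω σ hσ)]; simp

end Crest.Agent.R055
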